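import Vale.Agent.P042.H159.Rec

/-!
# Bounds for the exploration weights
-/

open Finset

set_option linter.unusedSectionVars false

namespace Vale.Agent.P042.H159

universe u

/-- The binomial sum. -/
def Bn (n : ℕ) (g : ℕ → ℝ) : ℝ := ∑ r ∈ range (n + 1), (n.choose r : ℝ) * g r

theorem Bn_zero (g : ℕ → ℝ) : Bn 0 g = g 0 := by simp [Bn]

theorem Bn_succ (n : ℕ) (g : ℕ → ℝ) : Bn (n + 1) g = Bn n (fun r => g (r + 1)) + Bn n g :=
  pascal n g

theorem Bn_Bn (m n : ℕ) (g : ℕ → ℝ) :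
    Bn m (fun s => Bn n fun r => g (r + s)) = Bn (n + m) g := by
  induction m generalizing g with
  | zero => simp [Bn_zero]
  | succ m ih =>
    rw [Bn_succ, ← add_assoc, Bn_succ]
    have h1 := ih fun r => g (r + 1)
    have h2 := ih g
    rw [← h1, ← h2]
    congr 1

theorem Bn_mono {n : ℕ} {g g' : ℕ → ℝ} (h : ∀ r ≤ n, g r ≤ g' r) : Bn n g ≤ Bn n g' :=
  Finset.sum_le_sum fun r hr => mul_le_mul_of_nonneg_left
    (h r (by simpa [Nat.lt_succ_iff] using hr)) (Nat.cast_nonneg _)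

theorem Bn_mul (n : ℕ) (c : ℝ) (g : ℕ → ℝ) : Bn n (fun r => g r * c) = Bn n g * c := by
  unfold Bn
  rw [Finset.sum_mul]
  exact Finset.sum_congr rfl fun r _ => by ring

theorem Bn_fact {n N : ℕ} (h : n ≤ N) :
    Bn n (fun r => ((N - r).factorial : ℝ)) ≤ ((N + 1).factorial : ℝ) := by
  unfold Bn
  have h1 : ∀ r ∈ range (n + 1), (n.choose r : ℝ) * ((N - r).factorial : ℝ) ≤
      (N.factorial : ℝ) := by
    intro r hr
    have hr' : r ≤ n := by simpa [Nat.lt_succ_iff] using hr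
    have h2 : n.choose r * (N - r).factorial ≤ N.factorial := by
      have h3 := Nat.choose_mul_factorial_mul_factorial (hr'.trans h)
      calc n.choose r * (N - r).factorial ≤ N.choose r * (N - r).factorial :=
            Nat.mul_le_mul_right _ (Nat.choose_le_choose r h)
        _ ≤ N.choose r * (N - r).factorial * r.factorial :=
            Nat.le_mul_of_pos_right _ (Nat.factorial_pos r)
        _ = N.factorial := by rw [← h3]; ring
    exact_mod_cast h2
  refine (Finset.sum_le_sum h1).trans ?_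
  rw [Finset.sum_const, Finset.card_range, nsmul_eq_mul, Nat.factorial_succ]
  push_cast
  have : (n : ℝ) ≤ N := by exact_mod_cast h
  exact mul_le_mul_of_nonneg_right (by linarith) (Nat.cast_nonneg _)

variable {Ω : Type u} [Fintype Ω]

/-- The norm of a function of two lists. -/
noncomputable def nn (o o' : ℕ) (f : List Ω → List Ω → ℝ) : ℝ :=
  √(∑ q ∈ Ls Ω o, ∑ q' ∈ Ls Ω o', f q q' ^ 2)

theorem nn_nonneg (o o' : ℕ) (f : List Ω → List Ω → ℝ) : 0 ≤ nn o o' f := Real.sqrt_nonneg _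

theorem nn_sq (o o' : ℕ) (f : List Ω → List Ω → ℝ) :
    nn o o' f ^ 2 = ∑ q ∈ Ls Ω o, ∑ q' ∈ Ls Ω o', f q q' ^ 2 :=
  Real.sq_sqrt (Finset.sum_nonneg fun _ _ => Finset.sum_nonneg fun _ _ => sq_nonneg _)

/-- Bounds of the cumulants. -/
structure Bd (b0 : ℕ) (y κ : ℝ) (T : Multiset Ω → ℝ) : Prop where
  one : ∑ l ∈ Ls Ω 1, T (l : Multiset Ω) ^ 2 ≤ y ^ 2
  two : ∑ l ∈ Ls Ω 2, T (l : Multiset Ω) ^ 2 ≤ y ^ 4
  op : BL ((κ / y) ^ 2) fun p q => T ((p ::ₘ q ::ₘ 0 : Multiset Ω))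
  hs : ∀ j, 3 ≤ j → j ≤ b0 → ∑ l ∈ Ls Ω j, T (l : Multiset Ω) ^ 2 ≤ (κ / y) ^ (2 * j)

/-- The weight of a node with `r + 1` old and `s` new ends. -/
noncomputable def wt (y κ : ℝ) (r s : ℕ) : ℝ :=
  if r = 0 ∧ s = 1 then (κ / y) ^ 2 else
    if r + s = 0 then y else if r + s = 1 then y ^ 2 else (κ / y) ^ (1 + r + s)

theorem wt_nonneg {y κ : ℝ} (hy : 1 ≤ y) (hκ : 0 ≤ κ) (r s : ℕ) : 0 ≤ wt y κ r s := by
  unfold wt
  split_ifs <;> positivity

/-- The numerical inequality. -/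
theorem wt_le {y κ : ℝ} (hy : 1 ≤ y) (hκ : 0 ≤ κ) (hκ1 : κ ≤ 1) {r s o n δ : ℕ} (hr : r ≤ n)
    (hs : s ≤ δ) :
    wt y κ r s * (y ^ (o + s + (n - r)) * κ ^ (δ - s)) ≤ y ^ (o + (n + 1)) * κ ^ δ := by
  have hy0 : 0 < y := by linarith
  unfold wt
  split_ifs with h1 h2 h3
  · obtain ⟨rfl, rfl⟩ := h1
    obtain ⟨e, rfl⟩ : ∃ e, δ = e + 1 := ⟨δ - 1, by omega⟩
    rw [Nat.sub_zero, Nat.add_sub_cancel, div_pow]
    have e1 : κ ^ 2 / y ^ 2 * (y ^ (o + 1 + n) * κ ^ e) =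
        (κ / y ^ 2) * (y ^ (o + (n + 1)) * κ ^ (e + 1)) := by
      rw [show o + 1 + n = o + (n + 1) by ring]
      field_simp
      ring
    rw [e1]
    refine mul_le_of_le_one_left (by positivity) ?_
    rw [div_le_one (by positivity)]
    exact hκ1.trans (one_le_pow₀ hy)
  · have hr0 : r = 0 := by omega
    have hs0 : s = 0 := by omega
    subst hr0 hs0
    rw [Nat.sub_zero, Nat.sub_zero, Nat.add_zero]
    exact le_of_eq (by ring)
  · have hr0 : r = 1 := by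
      rcases Nat.eq_zero_or_pos r with h | h
      · exact absurd ⟨h, by omega⟩ h1
      · omega
    have hs0 : s = 0 := by omega
    subst hr0 hs0
    obtain ⟨m, rfl⟩ : ∃ m, n = m + 1 := ⟨n - 1, by omega⟩
    rw [Nat.sub_zero, Nat.add_zero, Nat.add_sub_cancel]
    exact le_of_eq (by ring)
  · obtain ⟨m, rfl⟩ : ∃ m, n = m + r := ⟨n - r, by omega⟩
    obtain ⟨e, rfl⟩ : ∃ e, δ = e + s := ⟨δ - s, by omega⟩
    rw [Nat.add_sub_cancel, Nat.add_sub_cancel, div_pow]
    have e1 : κ ^ (1 + r + s) / y ^ (1 + r + s) * (y ^ (o + s + m) * κ ^ e) =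
        (κ ^ (1 + r) / y ^ (2 + 2 * r)) * (y ^ (o + (m + r + 1)) * κ ^ (e + s)) := by
      field_simp
      ring
    rw [e1]
    refine mul_le_of_le_one_left (by positivity) ?_
    rw [div_le_one (by positivity)]
    exact (pow_le_one₀ hκ hκ1).trans (one_le_pow₀ hy)

theorem Bd.wt_sq {b0 : ℕ} {y κ : ℝ} {T : Multiset Ω → ℝ} (hT : Bd b0 y κ T)
    {r s : ℕ} (h : 1 + r + s ≤ b0) (h1 : ¬ (r = 0 ∧ s = 1)) :
    ∑ l ∈ Ls Ω (r + s + 1), T (l : Multiset Ω) ^ 2 ≤ wt y κ r s ^ 2 := by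
  unfold wt
  rw [if_neg h1]
  split_ifs with h2 h3
  · rw [h2]
    exact hT.one
  · rw [h3]
    calc _ ≤ y ^ 4 := hT.two
      _ = _ := by ring
  · refine (hT.hs _ (by omega) (by omega)).trans_eq ?_
    rw [← pow_mul]
    congr 1
    ring

theorem sum4 (o r s m : ℕ) (V : List Ω → List Ω → ℝ) (T : Multiset Ω → ℝ) :
    ∑ x ∈ Ls Ω o ×ˢ (univ : Finset Ω), ∑ t ∈ Ls Ω r, ∑ u ∈ Ls Ω m,
      (∑ v ∈ Ls Ω s, V (x.1 ++ v) u ^ 2) * (∑ v ∈ Ls Ω s, T ↑(x.2 :: (t ++ v)) ^ 2) =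
      (∑ l ∈ Ls Ω (r + s + 1), T (l : Multiset Ω) ^ 2) * nn (o + s) m V ^ 2 := by
  rw [nn_sq, Finset.sum_product, sum_Ls_succ]
  simp only [sum_Ls_append]
  rw [mul_comm, Finset.sum_mul]
  refine Finset.sum_congr rfl fun q _ => ?_
  rw [Finset.mul_sum]
  refine Finset.sum_congr rfl fun a _ => ?_
  rw [Finset.mul_sum]
  refine Finset.sum_congr rfl fun t _ => ?_
  rw [← Finset.sum_mul]
  congr 1
  rw [Finset.sum_comm]

theorem contr_right {ξ : Ω → Ω → ℝ} (hξ : Con ξ) {b0 : ℕ} {y κ : ℝ} {T : Multiset Ω → ℝ}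
    (hT : Bd b0 y κ T) (hy : 1 ≤ y) (hκ : 0 ≤ κ) {o r s m : ℕ} (h : 1 + r + s ≤ b0)
    (V : List Ω → List Ω → ℝ) :
    N3 (Ls Ω o ×ˢ (univ : Finset Ω)) r m (fun x t u => ∑ E ∈ Ls (Ω × Ω) s,
      xi ξ E * T ↑(x.2 :: (t ++ E.map Prod.snd)) * V (x.1 ++ E.map Prod.fst) u) ≤
      wt y κ r s * nn (o + s) m V := by
  have hw := wt_nonneg hy hκ r s
  unfold N3
  rw [← Real.sqrt_sq (mul_nonneg hw (nn_nonneg _ _ _))]
  refine Real.sqrt_le_sqrt ?_
  rw [mul_pow]
  by_cases h1 : r = 0 ∧ s = 1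
  · obtain ⟨rfl, rfl⟩ := h1
    have hw2 : wt y κ 0 1 = (κ / y) ^ 2 := by simp [wt]
    rw [hw2, nn_sq, sum_Ls_append, Finset.sum_product, Finset.mul_sum]
    refine Finset.sum_le_sum fun q _ => ?_
    simp only [sum_Ls_zero, sum_Ls_succ, List.nil_append]
    rw [Finset.sum_comm, Finset.sum_comm (s := univ) (t := Ls Ω m), Finset.mul_sum]
    refine Finset.sum_le_sum fun u _ => ?_
    have e1 : ∀ a : Ω, ∑ e : Ω × Ω, xi ξ [e] * T ↑(a :: List.map Prod.snd [e]) *
        V (q ++ List.map Prod.fst [e]) u =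
        ∑ p', T ((a ::ₘ p' ::ₘ 0 : Multiset Ω)) * ∑ p, ξ p p' * V (q ++ [p]) u := by
      intro a
      rw [Fintype.sum_prod_type, Finset.sum_comm]
      refine Finset.sum_congr rfl fun p' _ => ?_
      rw [Finset.mul_sum]
      refine Finset.sum_congr rfl fun p _ => ?_
      rw [xi_cons, xi_nil, mul_one]
      simp only [List.map_cons, List.map_nil]
      have e2 : T (([a, p'] : List Ω) : Multiset Ω) = T (a ::ₘ p' ::ₘ 0 : Multiset Ω) := rfl
      rw [e2]
      ring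
    simp only [e1]
    refine (hT.op.right (by positivity) _).trans ?_
    refine mul_le_mul_of_nonneg_left ?_ (by positivity)
    have h2 := hξ.bl.swap.right zero_le_one fun p => V (q ++ [p]) u
    rwa [one_pow, one_mul] at h2
  · refine le_trans ?_ (mul_le_mul_of_nonneg_right (hT.wt_sq h h1) (sq_nonneg _))
    rw [← sum4]
    refine Finset.sum_le_sum fun x _ => Finset.sum_le_sum fun t _ => Finset.sum_le_sum fun u _ => ?_
    have h2 := sum_xi_sq hξ s (fun v => V (x.1 ++ v) u) (fun v => T ↑(x.2 :: (t ++ v)))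
    refine le_trans (le_of_eq ?_) h2
    congr 1
    exact Finset.sum_congr rfl fun E _ => by ring

theorem sum3 (r s m : ℕ) (V : List Ω → List Ω → ℝ) (T : Multiset Ω → ℝ) :
    ∑ a : Ω, ∑ t ∈ Ls Ω r, ∑ u ∈ Ls Ω m,
      (∑ v ∈ Ls Ω s, T ↑(a :: (t ++ v)) ^ 2) * (∑ v ∈ Ls Ω s, V u v ^ 2) =
      (∑ l ∈ Ls Ω (r + s + 1), T (l : Multiset Ω) ^ 2) * nn m s V ^ 2 := by
  rw [nn_sq, sum_Ls_succ]
  simp only [sum_Ls_append]
  rw [Finset.sum_mul]
  refine Finset.sum_congr rfl fun a _ => ?_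
  rw [Finset.sum_mul]
  refine Finset.sum_congr rfl fun t _ => ?_
  rw [Finset.mul_sum]

theorem contr_left {ξ : Ω → Ω → ℝ} (hξ : Con ξ) {b0 : ℕ} {y κ : ℝ} {T : Multiset Ω → ℝ}
    (hT : Bd b0 y κ T) (hy : 1 ≤ y) (hκ : 0 ≤ κ) {r s m : ℕ} (h : 1 + r + s ≤ b0)
    (V : List Ω → List Ω → ℝ) :
    N3 (univ : Finset Ω) r m (fun a t u => ∑ E ∈ Ls (Ω × Ω) s,
      xi ξ E * T ↑(a :: (t ++ E.map Prod.fst)) * V u (E.map Prod.snd)) ≤
      wt y κ r s * nn m s V := by
  have hw := wt_nonneg hy hκ r s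
  unfold N3
  rw [← Real.sqrt_sq (mul_nonneg hw (nn_nonneg _ _ _))]
  refine Real.sqrt_le_sqrt ?_
  rw [mul_pow]
  by_cases h1 : r = 0 ∧ s = 1
  · obtain ⟨rfl, rfl⟩ := h1
    have hw2 : wt y κ 0 1 = (κ / y) ^ 2 := by simp [wt]
    rw [hw2, nn_sq]
    simp only [sum_Ls_zero, sum_Ls_succ, List.nil_append]
    rw [Finset.sum_comm, Finset.mul_sum]
    refine Finset.sum_le_sum fun u _ => ?_
    have e1 : ∀ a : Ω, ∑ e : Ω × Ω, xi ξ [e] * T ↑(a :: List.map Prod.fst [e]) *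
        V u (List.map Prod.snd [e]) =
        ∑ p, T ((a ::ₘ p ::ₘ 0 : Multiset Ω)) * ∑ p', ξ p p' * V u [p'] := by
      intro a
      rw [Fintype.sum_prod_type]
      refine Finset.sum_congr rfl fun p _ => ?_
      rw [Finset.mul_sum]
      refine Finset.sum_congr rfl fun p' _ => ?_
      rw [xi_cons, xi_nil, mul_one]
      simp only [List.map_cons, List.map_nil]
      have e2 : T (([a, p] : List Ω) : Multiset Ω) = T (a ::ₘ p ::ₘ 0 : Multiset Ω) := rfl
      rw [e2]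
      ring
    simp only [e1]
    refine (hT.op.right (by positivity) _).trans ?_
    refine mul_le_mul_of_nonneg_left ?_ (by positivity)
    have h2 := hξ.bl.right zero_le_one fun p' => V u [p']
    rwa [one_pow, one_mul] at h2
  · refine le_trans ?_ (mul_le_mul_of_nonneg_right (hT.wt_sq h h1) (sq_nonneg _))
    rw [← sum3]
    refine Finset.sum_le_sum fun a _ => Finset.sum_le_sum fun t _ => Finset.sum_le_sum fun u _ => ?_
    exact sum_xi_sq hξ s (fun v => T ↑(a :: (t ++ v))) (fun v => V u v)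

/-- The main estimate. -/
theorem nn_U {ξ : Ω → Ω → ℝ} (hξ : Con ξ) {b0 : ℕ} {y κ : ℝ} {T T' : Multiset Ω → ℝ}
    (hT : Bd b0 y κ T) (hT' : Bd b0 y κ T') (hy : 1 ≤ y) (hκ : 0 ≤ κ) (hκ1 : κ ≤ 1) (k : ℕ) :
    ∀ δ o o', o + δ ≤ b0 → o' + δ ≤ b0 →
      nn o o' (U ξ T T' k δ) ≤ ((o + o' + 2 * δ).factorial : ℝ) * (y ^ (o + o') * κ ^ δ) := by
  have hy0 : 0 < y := by linarith
  induction k with
  | zero =>
    intro δ o o' _ _
    have : nn o o' (U ξ T T' 0 δ) = 0 := by simp [nn, U]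
    rw [this]
    positivity
  | succ k ih =>
    intro δ o o' ho ho'
    -- the common end of the two main cases
    have fin : ∀ (o n : ℕ) (G : ℕ → ℕ → ℝ), (∀ s ≤ δ, ∀ r ≤ n, G s r ≤ wt y κ r s *
        (((o + s + (n - r) + 2 * (δ - s)).factorial : ℝ) *
          (y ^ (o + s + (n - r)) * κ ^ (δ - s)))) →
        ∑ s ∈ range (δ + 1), (δ.choose s : ℝ) * ∑ r ∈ range (n + 1), (n.choose r : ℝ) * G s r ≤
          ((o + (n + 1) + 2 * δ).factorial : ℝ) * (y ^ (o + (n + 1)) * κ ^ δ) := by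
      intro o n G hG
      have h1 : Bn δ (fun s => Bn n fun r => G s r) ≤
          Bn δ (fun s => Bn n fun r => ((o + n + 2 * δ - (r + s)).factorial : ℝ) *
            (y ^ (o + (n + 1)) * κ ^ δ)) := by
        refine Bn_mono fun s hs => Bn_mono fun r hr => (hG s hs r hr).trans ?_
        rw [show o + s + (n - r) + 2 * (δ - s) = o + n + 2 * δ - (r + s) by omega, mul_left_comm]
        exact mul_le_mul_of_nonneg_left (wt_le hy hκ hκ1 hr hs) (Nat.cast_nonneg _)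
      refine h1.trans ?_
      simp only [Bn_mul]
      refine mul_le_mul_of_nonneg_right ?_ (by positivity)
      rw [Bn_Bn δ n fun j => ((o + n + 2 * δ - j).factorial : ℝ)]
      refine (Bn_fact (by omega)).trans_eq ?_
      congr 2
      ring
    rcases o' with _ | n
    · rcases o with _ | n
      · unfold nn
        simp only [sum_Ls_zero]
        rcases δ with _ | δ
        · simp [U]
        · simp only [U]
          rw [zero_pow two_ne_zero, Real.sqrt_zero]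
          positivity
      · have e1 : nn (n + 1) 0 (U ξ T T' (k + 1) δ) = N2 (univ : Finset Ω) n (fun a l =>
            ∑ s ∈ range (δ + 1), (δ.choose s : ℝ) * S l fun t u => ∑ E ∈ Ls (Ω × Ω) s,
              xi ξ E * T ↑(a :: (t ++ E.map Prod.fst)) *
                U ξ T T' k (δ - s) u (E.map Prod.snd)) := by
          unfold nn N2
          simp only [sum_Ls_zero, sum_Ls_succ, U, S_sum]
        rw [e1]
        refine (N2_sum _ _ _ _ (fun _ _ => Nat.cast_nonneg _) _).trans ?_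
        refine (Finset.sum_le_sum fun s _ => mul_le_mul_of_nonneg_left (N2_split n _ _)
          (Nat.cast_nonneg _)).trans ?_
        have := fin 0 n (fun s r => N3 (univ : Finset Ω) r (n - r) fun a t u =>
          ∑ E ∈ Ls (Ω × Ω) s, xi ξ E * T ↑(a :: (t ++ E.map Prod.fst)) *
            U ξ T T' k (δ - s) u (E.map Prod.snd)) (fun s hs r hr => by
          refine (contr_left hξ hT hy hκ (by omega) _).trans ?_
          refine mul_le_mul_of_nonneg_left ?_ (wt_nonneg hy hκ r s)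
          refine (ih (δ - s) (n - r) s (by omega) (by omega)).trans_eq ?_
          rw [show n - r + s = 0 + s + (n - r) by ring])
        rw [Nat.zero_add] at this
        rw [Nat.add_zero]
        exact this
    · have e1 : nn o (n + 1) (U ξ T T' (k + 1) δ) = N2 (Ls Ω o ×ˢ (univ : Finset Ω)) n
          (fun x l => ∑ s ∈ range (δ + 1), (δ.choose s : ℝ) * S l fun t u =>
            ∑ E ∈ Ls (Ω × Ω) s, xi ξ E * T' ↑(x.2 :: (t ++ E.map Prod.snd)) *
              U ξ T T' k (δ - s) (x.1 ++ E.map Prod.fst) u) := by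
        unfold nn N2
        rw [Finset.sum_product]
        simp only [sum_Ls_succ, U, S_sum]
      rw [e1]
      refine (N2_sum _ _ _ _ (fun _ _ => Nat.cast_nonneg _) _).trans ?_
      refine (Finset.sum_le_sum fun s _ => mul_le_mul_of_nonneg_left (N2_split n _ _)
        (Nat.cast_nonneg _)).trans ?_
      exact fin o n (fun s r => N3 (Ls Ω o ×ˢ (univ : Finset Ω)) r (n - r) fun x t u =>
        ∑ E ∈ Ls (Ω × Ω) s, xi ξ E * T' ↑(x.2 :: (t ++ E.map Prod.snd)) *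
          U ξ T T' k (δ - s) (x.1 ++ E.map Prod.fst) u) (fun s hs r hr => by
        refine (contr_right hξ hT' hy hκ (by omega) _).trans ?_
        refine mul_le_mul_of_nonneg_left ?_ (wt_nonneg hy hκ r s)
        exact ih (δ - s) (o + s) (n - r) (by omega) (by omega))

end Vale.Agent.P042.H159
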