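import Mathlib

/-!
# Sums over lists of given length, splittings of lists
-/

open Finset

namespace Vale.Agent.P042.H159

universe u

section lists

variable {α : Type u} [Fintype α]

variable (α) in
/-- The lists of length `n`. -/
def Ls : ℕ → Finset (List α)
  | 0 => {[]}
  | n + 1 => (univ ×ˢ Ls n).map ⟨fun z => z.1 :: z.2, fun z w h => by
      simpa [Prod.ext_iff] using h⟩

theorem sum_Ls_zero {β : Type*} [AddCommMonoid β] (f : List α → β) : ∑ l ∈ Ls α 0, f l = f [] := by
  simp [Ls]

theorem sum_Ls_succ {β : Type*} [AddCommMonoid β] (n : ℕ) (f : List α → β) :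
    ∑ l ∈ Ls α (n + 1), f l = ∑ a, ∑ l ∈ Ls α n, f (a :: l) := by
  rw [Ls, Finset.sum_map, Finset.sum_product]
  rfl

theorem mem_Ls {n : ℕ} {l : List α} : l ∈ Ls α n ↔ l.length = n := by
  induction n generalizing l with
  | zero => simp [Ls]
  | succ n ih =>
    cases l with
    | nil => simp [Ls]
    | cons a l =>
      constructor
      · intro h
        obtain ⟨z, hz, h2⟩ := Finset.mem_map.1 h
        obtain ⟨-, h3⟩ := Finset.mem_product.1 hz
        have h4 : z.1 :: z.2 = a :: l := h2
        obtain ⟨h5, h6⟩ := List.cons.inj h4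
        rw [List.length_cons, ← h6, ih.1 h3]
      · intro h
        rw [List.length_cons, Nat.add_right_cancel_iff] at h
        exact Finset.mem_map.2 ⟨(a, l), Finset.mem_product.2 ⟨Finset.mem_univ _, ih.2 h⟩, rfl⟩

theorem sum_Ls_append {β : Type*} [AddCommMonoid β] (m n : ℕ) (f : List α → β) :
    ∑ l ∈ Ls α (m + n), f l = ∑ l ∈ Ls α m, ∑ l' ∈ Ls α n, f (l ++ l') := by
  induction m generalizing f with
  | zero => simp [sum_Ls_zero]
  | succ m ih =>
    rw [show m + 1 + n = (m + n) + 1 by ring, sum_Ls_succ, sum_Ls_succ]
    exact Finset.sum_congr rfl fun a _ => ih _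

end lists

section split

variable {α : Type u} {R : Type*} [CommSemiring R]

/-- The sum over the splittings of a list. -/
def S : List α → (List α → List α → R) → R
  | [], φ => φ [] []
  | a :: l, φ => S l (fun t u => φ (a :: t) u) + S l (fun t u => φ t (a :: u))

theorem S_congr {l : List α} {φ ψ : List α → List α → R}
    (h : ∀ t u, (t ++ u).Perm l → φ t u = ψ t u) : S l φ = S l ψ := by
  induction l generalizing φ ψ with
  | nil => exact h [] [] (List.Perm.refl _)
  | cons a l ih =>
    unfold S
    rw [ih fun t u htu => h (a :: t) u (htu.cons a), ih fun t u htu => h t (a :: u) ?_]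
    exact List.perm_middle.trans (htu.cons a)

theorem S_append (l l' : List α) (φ : List α → List α → R) :
    S (l ++ l') φ = S l fun t u => S l' fun t' u' => φ (t ++ t') (u ++ u') := by
  induction l generalizing φ with
  | nil => rfl
  | cons a l ih =>
    rw [List.cons_append, S, S, ih, ih]
    rfl

theorem S_map {γ : Type*} (f : α → γ) (l : List α) (φ : List γ → List γ → R) :
    S (l.map f) φ = S l fun t u => φ (t.map f) (u.map f) := by
  induction l generalizing φ with
  | nil => rfl
  | cons a l ih =>
    rw [List.map_cons, S, S, ih, ih]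
    rfl

theorem S_add (l : List α) (φ ψ : List α → List α → R) :
    S l (fun t u => φ t u + ψ t u) = S l φ + S l ψ := by
  induction l generalizing φ ψ with
  | nil => rfl
  | cons a l ih =>
    simp only [S, ih]
    ring

theorem S_mul (l : List α) (c : R) (φ : List α → List α → R) :
    S l (fun t u => c * φ t u) = c * S l φ := by
  induction l generalizing φ with
  | nil => rfl
  | cons a l ih =>
    simp only [S, ih]
    ring

theorem S_zero (l : List α) : S l (fun _ _ => (0 : R)) = 0 := by
  induction l with
  | nil => rfl
  | cons a l ih => simp only [S, ih, add_zero]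

theorem S_sum {ι : Type*} (s : Finset ι) (l : List α) (φ : ι → List α → List α → R) :
    S l (fun t u => ∑ i ∈ s, φ i t u) = ∑ i ∈ s, S l (φ i) := by
  classical
  induction s using Finset.induction_on with
  | empty => simpa using S_zero l
  | insert i s hi ih =>
    simp only [Finset.sum_insert hi]
    rw [S_add, ih]

theorem S_comm {γ : Type*} (l : List α) (l' : List γ)
    (φ : List α → List α → List γ → List γ → R) :
    S l (fun t u => S l' fun t' u' => φ t u t' u') =
      S l' fun t' u' => S l fun t u => φ t u t' u' := by
  induction l generalizing φ with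
  | nil => rfl
  | cons a l ih =>
    simp only [S, ih]
    rw [S_add]

/-- Summation of a function of `s` with binomial weights, Pascal's rule. -/
theorem pascal (n : ℕ) (A : ℕ → R) :
    ∑ s ∈ range (n + 2), ((n + 1).choose s : R) * A s =
      ∑ s ∈ range (n + 1), (n.choose s : R) * A (s + 1) +
        ∑ s ∈ range (n + 1), (n.choose s : R) * A s := by
  rw [Finset.sum_range_succ' _ (n + 1)]
  have h : ∀ s, ((n + 1).choose (s + 1) : R) * A (s + 1) =
      (n.choose s : R) * A (s + 1) + (n.choose (s + 1) : R) * A (s + 1) := fun s => by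
    rw [Nat.choose_succ_succ]
    push_cast
    ring
  simp only [h, Finset.sum_add_distrib]
  rw [add_assoc]
  congr 1
  rw [Finset.sum_range_succ (fun s => (n.choose (s + 1) : R) * A (s + 1)), Nat.choose_succ_self,
    Nat.cast_zero, zero_mul, add_zero, Finset.sum_range_succ' (fun s => (n.choose s : R) * A s)]
  simp

theorem sum_S [Fintype α] (n : ℕ) (φ : List α → List α → R) :
    ∑ l ∈ Ls α n, S l φ =
      ∑ s ∈ range (n + 1), (n.choose s : R) * ∑ t ∈ Ls α s, ∑ u ∈ Ls α (n - s), φ t u := by
  induction n generalizing φ with
  | zero => simp [sum_Ls_zero, S]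
  | succ n ih =>
    rw [sum_Ls_succ, pascal]
    simp only [S, Finset.sum_add_distrib]
    rw [Finset.sum_comm (s := univ) (t := Ls α n), Finset.sum_comm (s := univ) (t := Ls α n)]
    simp only [← S_sum]
    rw [ih, ih]
    congr 1
    · refine Finset.sum_congr rfl fun s hs => ?_
      rw [sum_Ls_succ, Finset.sum_comm (s := univ) (t := Ls α s)]
      congr 1
      refine Finset.sum_congr rfl fun t _ => ?_
      rw [show n + 1 - (s + 1) = n - s by omega, Finset.sum_comm]
    · refine Finset.sum_congr rfl fun s hs => ?_
      congr 1
      refine Finset.sum_congr rfl fun t _ => ?_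
      have : s ≤ n := by simpa [Nat.lt_succ_iff] using hs
      rw [show n + 1 - s = (n - s) + 1 by omega, sum_Ls_succ, Finset.sum_comm]

end split

end Vale.Agent.P042.H159
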