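import Vale.Agent.P042.H159.Bound

/-!
# The logarithm of the series of a pairing of two laws with small cumulants
-/

open Finset

set_option linter.unusedSectionVars false

namespace Vale.Agent.P042.H159

universe u

theorem sum_Ls_fin {α : Type u} [Fintype α] {β : Type*} [AddCommMonoid β] (n : ℕ)
    (f : List α → β) : ∑ l ∈ Ls α n, f l = ∑ ω : Fin n → α, f (List.ofFn ω) := by
  induction n generalizing f with
  | zero => simp [sum_Ls_zero]
  | succ n ih =>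
    rw [sum_Ls_succ, ← (Fin.consEquiv fun _ => α).sum_comp, Fintype.sum_prod_type]
    refine Finset.sum_congr rfl fun a _ => ?_
    rw [ih]
    refine Finset.sum_congr rfl fun ω _ => ?_
    congr 1
    rw [List.ofFn_succ]
    rfl

variable {Ω : Type u} [Fintype Ω] (ξ : Ω → Ω → ℝ) (M T M' T' : Multiset Ω → ℝ)

/-- The coefficients of the pairing. -/
noncomputable def F (d : ℕ) : ℝ :=
  (∑ E ∈ Ls (Ω × Ω) d, xi ξ E * M ↑(E.map Prod.fst) * M' ↑(E.map Prod.snd)) / d.factorial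

/-- The weights of the connected parts of `e + 1` edges. -/
noncomputable def Ur (k e : ℕ) : ℝ :=
  ∑ s ∈ range (e + 1), (e.choose s : ℝ) * ∑ E ∈ Ls (Ω × Ω) (s + 1),
    xi ξ E * T ↑(E.map Prod.fst) * U ξ T T' k (e - s) [] (E.map Prod.snd)

variable {M T M' T'}

theorem F_eq (d : ℕ) : F ξ M M' d = R ξ M M' d [] [] / d.factorial := rfl

theorem R_root (hM : MC M T) (d : ℕ) :
    R ξ M M' (d + 1) [] [] = ∑ s ∈ range (d + 1), (d.choose s : ℝ) *
      ∑ E ∈ Ls (Ω × Ω) (s + 1), xi ξ E * T ↑(E.map Prod.fst) *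
        R ξ M M' (d - s) [] (E.map Prod.snd) := by
  have h1 : R ξ M M' (d + 1) [] [] = ∑ x : Ω × Ω, ξ x.1 x.2 * R ξ M M' d [x.1] [x.2] := by
    unfold R
    rw [sum_Ls_succ]
    refine Finset.sum_congr rfl fun x _ => ?_
    rw [Finset.mul_sum]
    refine Finset.sum_congr rfl fun E _ => ?_
    rw [xi_cons]
    simp only [List.nil_append, List.map_cons, List.singleton_append]
    ring
  rw [h1]
  have h2 : ∀ x : Ω × Ω, ξ x.1 x.2 * R ξ M M' d [x.1] [x.2] = ∑ s ∈ range (d + 1),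
      (d.choose s : ℝ) * ∑ E ∈ Ls (Ω × Ω) s, xi ξ (x :: E) * T ↑((x :: E).map Prod.fst) *
        R ξ M M' (d - s) [] ((x :: E).map Prod.snd) := by
    intro x
    rw [R_left ξ hM, Finset.mul_sum]
    refine Finset.sum_congr rfl fun s _ => ?_
    rw [mul_left_comm, Finset.mul_sum]
    congr 1
    refine Finset.sum_congr rfl fun E _ => ?_
    rw [xi_cons]
    simp only [S, List.nil_append, List.map_cons, List.singleton_append]
    ring
  simp only [h2]
  rw [Finset.sum_comm]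
  refine Finset.sum_congr rfl fun s _ => ?_
  rw [← Finset.mul_sum, sum_Ls_succ]

theorem R_root' (hM : MC M T) (hM' : MC M' T') {d k : ℕ} (hk : 2 * d + 2 ≤ k) :
    R ξ M M' (d + 1) [] [] = ∑ e ∈ range (d + 1), (d.choose e : ℝ) * Ur ξ T T' k e *
      R ξ M M' (d - e) [] [] := by
  rw [R_root ξ hM]
  have h1 : ∀ s ∈ range (d + 1), (d.choose s : ℝ) * ∑ E ∈ Ls (Ω × Ω) (s + 1),
      xi ξ E * T ↑(E.map Prod.fst) * R ξ M M' (d - s) [] (E.map Prod.snd) = (d.choose s : ℝ) *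
      ∑ e ∈ range (d - s + 1), ((d - s).choose e : ℝ) * (∑ E ∈ Ls (Ω × Ω) (s + 1),
        xi ξ E * T ↑(E.map Prod.fst) * U ξ T T' k e [] (E.map Prod.snd)) *
          R ξ M M' (d - s - e) [] [] := by
    intro s hs
    have hs' : s ≤ d := by simpa [Nat.lt_succ_iff] using hs
    congr 1
    simp only [Finset.mul_sum, Finset.sum_mul]
    rw [Finset.sum_comm]
    refine Finset.sum_congr rfl fun E hE => ?_
    have hl : (E.map Prod.snd).length = s + 1 := by rw [List.length_map, mem_Ls.1 hE]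
    rw [R_eq ξ hM hM' k (d - s) [] (E.map Prod.snd) (by
      rw [List.length_nil, hl]
      omega), Finset.mul_sum]
    exact Finset.sum_congr rfl fun e _ => by ring
  rw [Finset.sum_congr rfl h1]
  exact binom_re d (fun s e => ∑ E ∈ Ls (Ω × Ω) (s + 1),
    xi ξ E * T ↑(E.map Prod.fst) * U ξ T T' k e [] (E.map Prod.snd)) fun n => R ξ M M' n [] []

theorem Ur_term {ξ : Ω → Ω → ℝ} (hξ : Con ξ) {b0 : ℕ} {y κ : ℝ} {T T' : Multiset Ω → ℝ}
    (hT : Bd b0 y κ T) (hT' : Bd b0 y κ T') (hy : 1 ≤ y) (hκ : 0 ≤ κ) (hκ1 : κ ≤ 1) (k : ℕ)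
    {e s : ℕ} (he : e + 1 ≤ b0) (hs : s ≤ e) {w : ℝ} (hw : 0 ≤ w)
    (h : ∑ l ∈ Ls Ω (s + 1), T (l : Multiset Ω) ^ 2 ≤ w ^ 2) :
    |∑ E ∈ Ls (Ω × Ω) (s + 1), xi ξ E * T ↑(E.map Prod.fst) *
      U ξ T T' k (e - s) [] (E.map Prod.snd)| ≤
      ((2 * e + 1 - s).factorial : ℝ) * (w * (y ^ (s + 1) * κ ^ (e - s))) := by
  have hy0 : 0 < y := by linarith
  have h1 := sum_xi_sq hξ (s + 1) (fun v => T (v : Multiset Ω)) (fun v => U ξ T T' k (e - s) [] v)
  have h2 : ∑ v ∈ Ls Ω (s + 1), U ξ T T' k (e - s) [] v ^ 2 =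
      nn 0 (s + 1) (U ξ T T' k (e - s)) ^ 2 := by
    rw [nn_sq, sum_Ls_zero]
  have h3 := nn_U hξ hT hT' hy hκ hκ1 k (e - s) 0 (s + 1) (by omega) (by omega)
  rw [h2] at h1
  rw [show 0 + (s + 1) + 2 * (e - s) = 2 * e + 1 - s by omega, Nat.zero_add] at h3
  refine abs_le_of_sq_le_sq (h1.trans ?_) (by positivity)
  calc _ ≤ w ^ 2 * (((2 * e + 1 - s).factorial : ℝ) * (y ^ (s + 1) * κ ^ (e - s))) ^ 2 :=
        mul_le_mul h (pow_le_pow_left₀ (nn_nonneg _ _ _) h3 2) (sq_nonneg _) (sq_nonneg _)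
    _ = _ := by ring

theorem Ur_zero_le {ξ : Ω → Ω → ℝ} (hξ : Con ξ) {b0 : ℕ} {y κ : ℝ} {T T' : Multiset Ω → ℝ}
    (hT : Bd b0 y κ T) (hT' : Bd b0 y κ T') (hy : 1 ≤ y) (hκ : 0 ≤ κ) (hκ1 : κ ≤ 1) (k : ℕ)
    (hb : 1 ≤ b0) : |Ur ξ T T' k 0| ≤ y ^ 2 := by
  have h1 := Ur_term hξ hT hT' hy hκ hκ1 k (e := 0) (s := 0) (by omega) le_rfl
    (by linarith : (0 : ℝ) ≤ y) hT.one
  unfold Ur
  rw [Finset.sum_range_one, Nat.choose_zero_right, Nat.cast_one, one_mul]
  refine h1.trans_eq ?_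
  simp
  ring

theorem Ur_le {ξ : Ω → Ω → ℝ} (hξ : Con ξ) {b0 : ℕ} {y κ : ℝ} {T T' : Multiset Ω → ℝ}
    (hT : Bd b0 y κ T) (hT' : Bd b0 y κ T') (hy : 1 ≤ y) (hκ : 0 ≤ κ) (hκ1 : κ ≤ 1) (k : ℕ)
    {e : ℕ} (he : e + 2 ≤ b0) :
    |Ur ξ T T' k (e + 1)| ≤ ((2 * e + 4).factorial : ℝ) * (y ^ 4 * κ ^ e) := by
  have hy0 : 0 < y := by linarith
  have h1 : |Ur ξ T T' k (e + 1)| ≤ Bn (e + 1) (fun s => ((2 * (e + 1) + 1 - s).factorial : ℝ) *
      (y ^ 4 * κ ^ e)) := by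
    unfold Ur Bn
    refine (Finset.abs_sum_le_sum_abs _ _).trans (Finset.sum_le_sum fun s hs => ?_)
    have hs' : s ≤ e + 1 := by simpa [Nat.lt_succ_iff] using hs
    rw [abs_mul, abs_of_nonneg (Nat.cast_nonneg _ : (0 : ℝ) ≤ _)]
    refine mul_le_mul_of_nonneg_left ?_ (Nat.cast_nonneg _)
    rcases Nat.lt_or_ge s 2 with h2 | h2
    · rcases Nat.eq_zero_or_pos s with rfl | h3
      · refine (Ur_term hξ hT hT' hy hκ hκ1 k (by omega) hs' hy0.le hT.one).trans ?_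
        refine mul_le_mul_of_nonneg_left ?_ (Nat.cast_nonneg _)
        rw [Nat.sub_zero, Nat.zero_add, pow_one]
        calc y * (y * κ ^ (e + 1)) = (κ * y ^ 2) * κ ^ e := by ring
          _ ≤ y ^ 4 * κ ^ e := mul_le_mul_of_nonneg_right ?_ (by positivity)
        calc κ * y ^ 2 ≤ 1 * y ^ 2 := mul_le_mul_of_nonneg_right hκ1 (by positivity)
          _ ≤ y ^ 2 * y ^ 2 := mul_le_mul_of_nonneg_right (one_le_pow₀ hy) (by positivity)
          _ = y ^ 4 := by ring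
      · have h4 : s = 1 := by omega
        subst h4
        refine (Ur_term hξ hT hT' hy hκ hκ1 k (by omega) hs' (by positivity : (0 : ℝ) ≤ y ^ 2)
          (hT.two.trans_eq (by ring))).trans (mul_le_mul_of_nonneg_left (le_of_eq ?_)
            (Nat.cast_nonneg _))
        rw [Nat.add_sub_cancel]
        ring
    · refine (Ur_term hξ hT hT' hy hκ hκ1 k (by omega) hs'
        (by positivity : (0 : ℝ) ≤ (κ / y) ^ (s + 1))
        ((hT.hs (s + 1) (by omega) (by omega)).trans_eq (by ring))).trans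
          (mul_le_mul_of_nonneg_left ?_ (Nat.cast_nonneg _))
      obtain ⟨r, hr⟩ : ∃ r, e + 1 = r + s := ⟨e + 1 - s, by omega⟩
      rw [hr, Nat.add_sub_cancel, div_pow]
      have e1 : κ ^ (s + 1) / y ^ (s + 1) * (y ^ (s + 1) * κ ^ r) = κ ^ 2 * κ ^ e := by
        field_simp
        rw [← pow_add, ← pow_add]
        congr 1
        omega
      rw [e1]
      refine mul_le_mul_of_nonneg_right ?_ (by positivity)
      exact (pow_le_one₀ hκ hκ1).trans (one_le_pow₀ hy)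
  refine h1.trans ?_
  rw [Bn_mul]
  refine mul_le_mul_of_nonneg_right ?_ (by positivity)
  exact (Bn_fact (by omega)).trans_eq (by congr 2)

/-- The logarithmic coefficients of the pairing of two laws with small cumulants. -/
theorem blockC {ξ : Ω → Ω → ℝ} (hξ : Con ξ) (hM0 : M 0 = 1) (hM : MC M T) (hM0' : M' 0 = 1)
    (hM' : MC M' T') {b0 : ℕ} {y κ : ℝ} (hy : 1 ≤ y) (hκ : 0 ≤ κ) (hκ1 : κ ≤ 1)
    (hT : Bd b0 y κ T) (hT' : Bd b0 y κ T') :
    ∃ W : ℕ → ℝ, F ξ M M' 0 = 1 ∧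
      (∀ d, 1 ≤ d → d ≤ b0 → d * F ξ M M' d = ∑ m ∈ Icc 1 d, m * W m * F ξ M M' (d - m)) ∧
      (1 ≤ b0 → |W 1| ≤ y ^ 2) ∧
      ∀ m, 2 ≤ m → m ≤ b0 →
        |W m| ≤ ((2 * m).factorial : ℝ) / m.factorial * (y ^ 4 * κ ^ (m - 2)) := by
  set k := 2 * b0 + 2 with hk
  refine ⟨fun m => Ur ξ T T' k (m - 1) / m.factorial, ?_, fun d hd1 hd => ?_, fun hb => ?_,
    fun m hm1 hm => ?_⟩
  · simp [F, sum_Ls_zero, xi_nil, hM0, hM0']
  · obtain ⟨d, rfl⟩ : ∃ e, d = e + 1 := ⟨d - 1, by omega⟩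
    rw [F_eq, R_root' ξ hM hM' (k := k) (by omega), Finset.sum_div, Finset.mul_sum,
      ← Finset.Ico_succ_right_eq_Icc, Finset.sum_Ico_eq_sum_range]
    refine Finset.sum_congr rfl fun e he => ?_
    have he' : e ≤ d := by simpa [Nat.lt_succ_iff] using he
    rw [F_eq, show d + 1 - (1 + e) = d - e by omega]
    beta_reduce
    rw [show 1 + e - 1 = e by omega, show 1 + e = e + 1 by ring]
    have h1 : (d.choose e : ℝ) * e.factorial * (d - e).factorial = d.factorial := by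
      exact_mod_cast Nat.choose_mul_factorial_mul_factorial he'
    have h2 : ((d + 1).factorial : ℝ) = (d + 1) * d.factorial := by
      rw [Nat.factorial_succ]
      push_cast
      ring
    have h3 : ((e + 1).factorial : ℝ) = (e + 1) * e.factorial := by
      rw [Nat.factorial_succ]
      push_cast
      ring
    have h4 : (e.factorial : ℝ) ≠ 0 := by positivity
    have h5 : ((d - e).factorial : ℝ) ≠ 0 := by positivity
    have h6 : (d.choose e : ℝ) ≠ 0 := by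
      have := Nat.choose_pos he'
      positivity
    have h7 : (d : ℝ) + 1 ≠ 0 := by positivity
    have h8 : (e : ℝ) + 1 ≠ 0 := by positivity
    rw [h2, h3, ← h1]
    push_cast
    field_simp
  · have h1 := Ur_zero_le hξ hT hT' hy hκ hκ1 k hb
    simpa using h1
  · obtain ⟨e, rfl⟩ : ∃ e, m = e + 2 := ⟨m - 2, by omega⟩
    have h1 := Ur_le hξ hT hT' hy hκ hκ1 k hm
    beta_reduce
    rw [show e + 2 - 1 = e + 1 by omega, Nat.add_sub_cancel, abs_div,
      abs_of_nonneg (Nat.cast_nonneg _ : (0 : ℝ) ≤ ((e + 2).factorial : ℝ)), div_mul_eq_mul_div,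
      show 2 * (e + 2) = 2 * e + 4 by ring]
    exact div_le_div_of_nonneg_right h1 (Nat.cast_nonneg _)

end Vale.Agent.P042.H159
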