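import Vale.Agent.P042.H159.Lst

/-!
# Norms of functions of lists
-/

open Finset

set_option linter.unusedSectionVars false

namespace Vale.Agent.P042.H159

universe u

section n2

variable {β : Type*}

/-- The `ℓ²` norm on a finite set. -/
noncomputable def n2 (X : Finset β) (f : β → ℝ) : ℝ := √(∑ x ∈ X, f x ^ 2)

theorem n2_nonneg (X : Finset β) (f : β → ℝ) : 0 ≤ n2 X f := Real.sqrt_nonneg _

theorem n2_sq (X : Finset β) (f : β → ℝ) : n2 X f ^ 2 = ∑ x ∈ X, f x ^ 2 :=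
  Real.sq_sqrt (Finset.sum_nonneg fun _ _ => sq_nonneg _)

theorem n2_le_of_sq {X : Finset β} {f : β → ℝ} {c : ℝ} (hc : 0 ≤ c)
    (h : ∑ x ∈ X, f x ^ 2 ≤ c ^ 2) : n2 X f ≤ c := by
  unfold n2
  rw [← Real.sqrt_sq hc]
  exact Real.sqrt_le_sqrt h

theorem sum_mul_le (X : Finset β) (f g : β → ℝ) : ∑ x ∈ X, f x * g x ≤ n2 X f * n2 X g :=
  Real.sum_mul_le_sqrt_mul_sqrt X f g

theorem n2_add (X : Finset β) (f g : β → ℝ) : n2 X (fun x => f x + g x) ≤ n2 X f + n2 X g := by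
  refine n2_le_of_sq (add_nonneg (n2_nonneg _ _) (n2_nonneg _ _)) ?_
  have h1 : ∑ x ∈ X, (f x + g x) ^ 2 =
      ∑ x ∈ X, f x ^ 2 + 2 * ∑ x ∈ X, f x * g x + ∑ x ∈ X, g x ^ 2 := by
    rw [Finset.mul_sum, ← Finset.sum_add_distrib, ← Finset.sum_add_distrib]
    exact Finset.sum_congr rfl fun x _ => by ring
  rw [h1, ← n2_sq X f, ← n2_sq X g]
  nlinarith [sum_mul_le X f g]

theorem n2_mul (X : Finset β) {c : ℝ} (hc : 0 ≤ c) (f : β → ℝ) :
    n2 X (fun x => c * f x) = c * n2 X f := by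
  unfold n2
  simp only [mul_pow]
  rw [← Finset.mul_sum, Real.sqrt_mul (sq_nonneg c), Real.sqrt_sq hc]

theorem n2_sum {ι : Type*} (s : Finset ι) (X : Finset β) (f : ι → β → ℝ) :
    n2 X (fun x => ∑ i ∈ s, f i x) ≤ ∑ i ∈ s, n2 X (f i) := by
  classical
  induction s using Finset.induction_on with
  | empty => simp [n2]
  | insert i s hi ih =>
    simp only [Finset.sum_insert hi]
    exact (n2_add X _ _).trans (add_le_add le_rfl ih)

end n2

section split

variable {α β : Type u} [Fintype α]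

/-- The `ℓ²` norm of a function with a parameter and a list. -/
noncomputable def N2 (P : Finset β) (n : ℕ) (ψ : β → List α → ℝ) : ℝ :=
  √(∑ p ∈ P, ∑ l ∈ Ls α n, ψ p l ^ 2)

/-- The `ℓ²` norm of a function with a parameter and two lists. -/
noncomputable def N3 (P : Finset β) (m n : ℕ) (φ : β → List α → List α → ℝ) : ℝ :=
  √(∑ p ∈ P, ∑ t ∈ Ls α m, ∑ u ∈ Ls α n, φ p t u ^ 2)

theorem N2_eq (P : Finset β) (n : ℕ) (ψ : β → List α → ℝ) :
    N2 P n ψ = n2 (P ×ˢ Ls α n) fun z => ψ z.1 z.2 := by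
  unfold N2 n2
  rw [Finset.sum_product]

theorem N2_sum {ι : Type*} (s : Finset ι) (P : Finset β) (n : ℕ) (c : ι → ℝ) (hc : ∀ i ∈ s, 0 ≤ c i)
    (ψ : ι → β → List α → ℝ) :
    N2 P n (fun p l => ∑ i ∈ s, c i * ψ i p l) ≤ ∑ i ∈ s, c i * N2 P n (ψ i) := by
  simp only [N2_eq]
  refine (n2_sum s _ _).trans_eq (Finset.sum_congr rfl fun i hi => ?_)
  exact n2_mul _ (hc i hi) _

theorem N2_split (n : ℕ) (P : Finset β) (φ : β → List α → List α → ℝ) :
    N2 P n (fun p l => S l (φ p)) ≤ ∑ r ∈ range (n + 1), (n.choose r : ℝ) * N3 P r (n - r) φ := by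
  induction n generalizing β with
  | zero =>
    simp [N2, N3, sum_Ls_zero, S]
  | succ n ih =>
    rw [pascal n fun r => N3 P r (n + 1 - r) φ]
    have h1 : N2 P (n + 1) (fun p l => S l (φ p)) =
        n2 ((P ×ˢ (univ : Finset α)) ×ˢ Ls α n) (fun z =>
          S z.2 (fun t u => φ z.1.1 (z.1.2 :: t) u) + S z.2 (fun t u => φ z.1.1 t (z.1.2 :: u))) := by
      unfold N2 n2
      simp only [Finset.sum_product, sum_Ls_succ]
      rfl
    rw [h1]
    refine (n2_add _ _ _).trans (add_le_add ?_ ?_)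
    · have h2 := ih (P ×ˢ (univ : Finset α)) fun x t u => φ x.1 (x.2 :: t) u
      rw [N2_eq] at h2
      refine h2.trans_eq (Finset.sum_congr rfl fun r hr => ?_)
      congr 1
      unfold N3
      congr 1
      rw [Finset.sum_product]
      refine Finset.sum_congr rfl fun p _ => ?_
      rw [sum_Ls_succ, show n + 1 - (r + 1) = n - r by omega]
    · have h2 := ih (P ×ˢ (univ : Finset α)) fun x t u => φ x.1 t (x.2 :: u)
      rw [N2_eq] at h2
      refine h2.trans_eq (Finset.sum_congr rfl fun r hr => ?_)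
      congr 1
      unfold N3
      congr 1
      rw [Finset.sum_product]
      refine Finset.sum_congr rfl fun p _ => ?_
      have : r ≤ n := by simpa [Nat.lt_succ_iff] using hr
      rw [show n + 1 - r = (n - r) + 1 by omega]
      simp only [sum_Ls_succ]
      rw [Finset.sum_comm]

end split

section op

variable {Ω : Type u} [Fintype Ω] (ξ : Ω → Ω → ℝ)

/-- The weight of a list of edges. -/
def xi (E : List (Ω × Ω)) : ℝ := (E.map fun e => ξ e.1 e.2).prod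

theorem xi_nil : xi ξ [] = 1 := rfl

theorem xi_cons (e : Ω × Ω) (E : List (Ω × Ω)) : xi ξ (e :: E) = ξ e.1 e.2 * xi ξ E := by
  simp [xi]

theorem xi_perm {E E' : List (Ω × Ω)} (h : E.Perm E') : xi ξ E = xi ξ E' :=
  (h.map _).prod_eq

theorem xi_append (E E' : List (Ω × Ω)) : xi ξ (E ++ E') = xi ξ E * xi ξ E' := by
  simp [xi]

/-- `ξ` is a contraction. -/
def Con (ξ : Ω → Ω → ℝ) : Prop :=
  ∀ u v : Ω → ℝ, |∑ p, ∑ q, u p * ξ p q * v q| ≤ √(∑ p, u p ^ 2) * √(∑ q, v q ^ 2)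

/-- A bilinear form is bounded by `w`. -/
def BL (w : ℝ) (ζ : Ω → Ω → ℝ) : Prop :=
  ∀ u v : Ω → ℝ, |∑ p, ∑ q, u p * ζ p q * v q| ≤ w * √(∑ p, u p ^ 2) * √(∑ q, v q ^ 2)

variable {ξ}

theorem BL.right {w : ℝ} {ζ : Ω → Ω → ℝ} (h : BL w ζ) (hw : 0 ≤ w) (v : Ω → ℝ) :
    ∑ p, (∑ q, ζ p q * v q) ^ 2 ≤ w ^ 2 * ∑ q, v q ^ 2 := by
  have h1 := h (fun p => ∑ q, ζ p q * v q) v
  have h2 : ∑ p, ∑ q, (∑ q, ζ p q * v q) * ζ p q * v q = ∑ p, (∑ q, ζ p q * v q) ^ 2 := by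
    refine Finset.sum_congr rfl fun p _ => ?_
    rw [sq, Finset.mul_sum]
    exact Finset.sum_congr rfl fun q _ => by ring
  rw [h2, abs_of_nonneg (Finset.sum_nonneg fun _ _ => sq_nonneg _)] at h1
  set a := ∑ p, (∑ q, ζ p q * v q) ^ 2 with ha
  have ha0 : 0 ≤ a := Finset.sum_nonneg fun _ _ => sq_nonneg _
  have hb0 : 0 ≤ ∑ q, v q ^ 2 := Finset.sum_nonneg fun _ _ => sq_nonneg _
  have h3 : √a ≤ w * √(∑ q, v q ^ 2) := by
    rcases eq_or_lt_of_le (Real.sqrt_nonneg a) with h0 | h0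
    · rw [← h0]
      positivity
    · have h4 : √a * √a ≤ (w * √(∑ q, v q ^ 2)) * √a := by
        rw [Real.mul_self_sqrt ha0]
        calc a ≤ w * √a * √(∑ q, v q ^ 2) := h1
          _ = _ := by ring
      exact le_of_mul_le_mul_right h4 h0
  calc a = √a ^ 2 := (Real.sq_sqrt ha0).symm
    _ ≤ (w * √(∑ q, v q ^ 2)) ^ 2 := pow_le_pow_left₀ (Real.sqrt_nonneg _) h3 2
    _ = _ := by rw [mul_pow, Real.sq_sqrt hb0]

theorem BL.swap {w : ℝ} {ζ : Ω → Ω → ℝ} (h : BL w ζ) : BL w fun p q => ζ q p := fun u v => by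
  have h1 := h v u
  rw [Finset.sum_comm] at h1
  calc |∑ p, ∑ q, u p * ζ q p * v q| = |∑ p, ∑ q, v q * ζ q p * u p| := by
        congr 1
        exact Finset.sum_congr rfl fun p _ => Finset.sum_congr rfl fun q _ => by ring
    _ ≤ _ := h1
    _ = _ := by ring

theorem Con.bl (h : Con ξ) : BL 1 ξ := fun u v => by
  rw [one_mul]
  exact h u v

/-- The tensor power of `ξ`. -/
def op (ξ : Ω → Ω → ℝ) : List Ω → (List Ω → ℝ) → ℝ
  | [], B => B []
  | p :: v, B => ∑ p', ξ p p' * op ξ v (fun v' => B (p' :: v'))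

theorem sum_op (s : ℕ) (A B : List Ω → ℝ) :
    ∑ E ∈ Ls (Ω × Ω) s, xi ξ E * A (E.map Prod.fst) * B (E.map Prod.snd) =
      ∑ v ∈ Ls Ω s, A v * op ξ v B := by
  induction s generalizing A B with
  | zero => simp [sum_Ls_zero, xi_nil, op]
  | succ s ih =>
    rw [sum_Ls_succ, sum_Ls_succ, Fintype.sum_prod_type]
    refine Finset.sum_congr rfl fun p _ => ?_
    have h1 : ∀ p' : Ω, ∑ l ∈ Ls (Ω × Ω) s, xi ξ ((p, p') :: l) * A (((p, p') :: l).map Prod.fst) *
        B (((p, p') :: l).map Prod.snd) =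
        ∑ v ∈ Ls Ω s, A (p :: v) * (ξ p p' * op ξ v (fun v' => B (p' :: v'))) := fun p' => by
      have h2 := ih (fun v => ξ p p' * A (p :: v)) (fun v => B (p' :: v))
      refine Eq.trans (Finset.sum_congr rfl fun E _ => ?_)
        (h2.trans (Finset.sum_congr rfl fun v _ => ?_))
      · rw [xi_cons]
        simp only [List.map_cons]
        ring
      · ring
    simp only [h1]
    rw [Finset.sum_comm]
    refine Finset.sum_congr rfl fun v _ => ?_
    rw [← Finset.mul_sum]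
    rfl

theorem sum_op_sq (h : Con ξ) (s : ℕ) (B : List Ω → ℝ) :
    ∑ v ∈ Ls Ω s, op ξ v B ^ 2 ≤ ∑ v ∈ Ls Ω s, B v ^ 2 := by
  induction s generalizing B with
  | zero => simp [sum_Ls_zero, op]
  | succ s ih =>
    rw [sum_Ls_succ, sum_Ls_succ, Finset.sum_comm]
    have h1 : ∀ v, ∑ p, op ξ (p :: v) B ^ 2 ≤ ∑ p', op ξ v (fun v' => B (p' :: v')) ^ 2 := fun v => by
      have := h.bl.right zero_le_one fun p' => op ξ v (fun v' => B (p' :: v'))
      rw [one_pow, one_mul] at this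
      exact this
    refine (Finset.sum_le_sum fun v _ => h1 v).trans ?_
    rw [Finset.sum_comm]
    exact Finset.sum_le_sum fun p' _ => ih _

/-- The tensor powers of `ξ` are contractions. -/
theorem sum_xi_sq (h : Con ξ) (s : ℕ) (A B : List Ω → ℝ) :
    (∑ E ∈ Ls (Ω × Ω) s, xi ξ E * A (E.map Prod.fst) * B (E.map Prod.snd)) ^ 2 ≤
      (∑ v ∈ Ls Ω s, A v ^ 2) * ∑ v ∈ Ls Ω s, B v ^ 2 := by
  rw [sum_op]
  refine (Finset.sum_mul_sq_le_sq_mul_sq _ _ _).trans ?_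
  exact mul_le_mul_of_nonneg_left (sum_op_sq h s B) (Finset.sum_nonneg fun _ _ => sq_nonneg _)

end op

end Vale.Agent.P042.H159
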