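import Vale.Agent.P042.H159.Nrm

/-!
# The exploration recursion
-/

open Finset

set_option linter.unusedSectionVars false

namespace Vale.Agent.P042.H159

universe u

variable {Ω : Type u} [Fintype Ω]

/-- The moment-cumulant recursion. -/
def MC {Ω : Type*} (M T : Multiset Ω → ℝ) : Prop :=
  ∀ (a : Ω) (s : Multiset Ω),
    M (a ::ₘ s) = ((s.antidiagonal).map fun p => T (a ::ₘ p.1) * M p.2).sum

theorem S_antidiagonal {α : Type*} {R : Type*} [CommSemiring R] (l : List α)
    (φ : Multiset α → Multiset α → R) :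
    S l (fun t u => φ (t : Multiset α) (u : Multiset α)) =
      (((l : Multiset α).antidiagonal).map fun p => φ p.1 p.2).sum := by
  induction l generalizing φ with
  | nil => simp [S]
  | cons a l ih =>
    rw [← Multiset.cons_coe, Multiset.antidiagonal_cons, Multiset.map_add, Multiset.sum_add,
      Multiset.map_map, Multiset.map_map, S]
    have h1 := ih fun t u => φ (a ::ₘ t) u
    have h2 := ih fun t u => φ t (a ::ₘ u)
    rw [add_comm]
    refine congrArg₂ _ ?_ ?_
    · exact h2
    · exact h1

/-- The moment-cumulant recursion for lists. -/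
theorem MC.list {M T : Multiset Ω → ℝ} (h : MC M T) (a : Ω) (l : List Ω) :
    M ((a :: l : List Ω) : Multiset Ω) =
      S l fun t u => T ((a :: t : List Ω) : Multiset Ω) * M (u : Multiset Ω) := by
  rw [← Multiset.cons_coe, h]
  exact (S_antidiagonal l fun t u => T (a ::ₘ t) * M u).symm

variable (ξ : Ω → Ω → ℝ) (M T M' T' : Multiset Ω → ℝ)

/-- The sum over `d` further edges. -/
noncomputable def R (d : ℕ) (q q' : List Ω) : ℝ :=
  ∑ E ∈ Ls (Ω × Ω) d, xi ξ E * M ↑(q ++ E.map Prod.fst) * M' ↑(q' ++ E.map Prod.snd)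

variable {M T M' T'}

theorem R_perm (d : ℕ) {q r q' r' : List Ω} (h : q.Perm r) (h' : q'.Perm r') :
    R ξ M M' d q q' = R ξ M M' d r r' := by
  unfold R
  refine Finset.sum_congr rfl fun E _ => ?_
  rw [Multiset.coe_eq_coe.2 (h.append_right _), Multiset.coe_eq_coe.2 (h'.append_right _)]

theorem R_swap (d : ℕ) (q q' : List Ω) :
    R ξ M M' d q q' = R (fun a b => ξ b a) M' M d q' q := by
  have key : ∀ (s : ℕ) (A B : List Ω → ℝ),
      ∑ E ∈ Ls (Ω × Ω) s, xi ξ E * A (E.map Prod.fst) * B (E.map Prod.snd) =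
        ∑ E ∈ Ls (Ω × Ω) s, xi (fun a b => ξ b a) E * B (E.map Prod.fst) * A (E.map Prod.snd) := by
    intro s
    induction s with
    | zero => intro A B; simp [sum_Ls_zero, xi_nil]; ring
    | succ s ih =>
      intro A B
      rw [sum_Ls_succ, sum_Ls_succ, ← (Equiv.prodComm Ω Ω).sum_comp]
      refine Finset.sum_congr rfl fun e _ => ?_
      have h1 := ih (fun v => ξ e.2 e.1 * A (e.2 :: v)) (fun v => B (e.1 :: v))
      refine Eq.trans (Finset.sum_congr rfl fun E _ => ?_)
        (h1.trans (Finset.sum_congr rfl fun E _ => ?_))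
      · rw [xi_cons]
        simp only [List.map_cons, Equiv.prodComm_apply, Prod.fst_swap, Prod.snd_swap]
        ring
      · rw [xi_cons]
        simp only [List.map_cons]
        ring
  exact key d (fun v => M ↑(q ++ v)) (fun v => M' ↑(q' ++ v))

/-- One step on the right. -/
theorem R_right (hM' : MC M' T') (d : ℕ) (q : List Ω) (a : Ω) (q' : List Ω) :
    R ξ M M' d q (a :: q') = ∑ s ∈ range (d + 1), (d.choose s : ℝ) * ∑ E ∈ Ls (Ω × Ω) s,
      S q' fun t u => xi ξ E * T' ↑(a :: (t ++ E.map Prod.snd)) *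
        R ξ M M' (d - s) (q ++ E.map Prod.fst) u := by
  have h1 : ∀ E : List (Ω × Ω), xi ξ E * M ↑(q ++ E.map Prod.fst) *
      M' ↑((a :: q') ++ E.map Prod.snd) = S E fun E1 E2 => S q' fun t u =>
        xi ξ E1 * T' ↑(a :: (t ++ E1.map Prod.snd)) *
          (xi ξ E2 * M ↑((q ++ E1.map Prod.fst) ++ E2.map Prod.fst) *
            M' ↑(u ++ E2.map Prod.snd)) := by
    intro E
    rw [List.cons_append, hM'.list, S_append]
    simp only [S_map]
    rw [S_comm, ← S_mul]
    refine S_congr fun E1 E2 hE => ?_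
    rw [← S_mul]
    refine S_congr fun t u _ => ?_
    have e1 : xi ξ E = xi ξ E1 * xi ξ E2 := by rw [← xi_append, xi_perm ξ hE]
    have e2 : M ↑(q ++ E.map Prod.fst) = M ↑((q ++ E1.map Prod.fst) ++ E2.map Prod.fst) := by
      congr 1
      rw [Multiset.coe_eq_coe, List.append_assoc, ← List.map_append]
      exact ((hE.map _).symm).append_left _
    rw [e1, e2]
    ring
  unfold R
  simp only [h1]
  rw [sum_S]
  refine Finset.sum_congr rfl fun s _ => ?_
  congr 1
  refine Finset.sum_congr rfl fun E1 _ => ?_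
  rw [← S_sum]
  refine S_congr fun t u _ => ?_
  rw [Finset.mul_sum]

/-- One step on the left. -/
theorem R_left (hM : MC M T) (d : ℕ) (a : Ω) (q q' : List Ω) :
    R ξ M M' d (a :: q) q' = ∑ s ∈ range (d + 1), (d.choose s : ℝ) * ∑ E ∈ Ls (Ω × Ω) s,
      S q fun t u => xi ξ E * T ↑(a :: (t ++ E.map Prod.fst)) *
        R ξ M M' (d - s) u (q' ++ E.map Prod.snd) := by
  have h1 : ∀ E : List (Ω × Ω), xi ξ E * M ↑((a :: q) ++ E.map Prod.fst) *
      M' ↑(q' ++ E.map Prod.snd) = S E fun E1 E2 => S q fun t u =>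
        xi ξ E1 * T ↑(a :: (t ++ E1.map Prod.fst)) *
          (xi ξ E2 * M ↑(u ++ E2.map Prod.fst) *
            M' ↑((q' ++ E1.map Prod.snd) ++ E2.map Prod.snd)) := by
    intro E
    rw [List.cons_append, hM.list, S_append]
    simp only [S_map]
    rw [S_comm, mul_comm (xi ξ E), mul_assoc, mul_comm, ← S_mul]
    refine S_congr fun E1 E2 hE => ?_
    rw [← S_mul]
    refine S_congr fun t u _ => ?_
    have e1 : xi ξ E = xi ξ E1 * xi ξ E2 := by rw [← xi_append, xi_perm ξ hE]
    have e2 : M' ↑(q' ++ E.map Prod.snd) = M' ↑((q' ++ E1.map Prod.snd) ++ E2.map Prod.snd) := by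
      congr 1
      rw [Multiset.coe_eq_coe, List.append_assoc, ← List.map_append]
      exact ((hE.map _).symm).append_left _
    rw [e1, e2]
    ring
  unfold R
  simp only [h1]
  rw [sum_S]
  refine Finset.sum_congr rfl fun s _ => ?_
  congr 1
  refine Finset.sum_congr rfl fun E1 _ => ?_
  rw [← S_sum]
  refine S_congr fun t u _ => ?_
  rw [Finset.mul_sum]

variable (T T') in
/-- The weights of the explored parts. -/
noncomputable def U : ℕ → ℕ → List Ω → List Ω → ℝ
  | 0, _, _, _ => 0
  | k + 1, δ, q, a :: q' => ∑ s ∈ range (δ + 1), (δ.choose s : ℝ) * ∑ E ∈ Ls (Ω × Ω) s,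
      S q' fun t u => xi ξ E * T' ↑(a :: (t ++ E.map Prod.snd)) * U k (δ - s) (q ++ E.map Prod.fst) u
  | k + 1, δ, a :: q, [] => ∑ s ∈ range (δ + 1), (δ.choose s : ℝ) * ∑ E ∈ Ls (Ω × Ω) s,
      S q fun t u => xi ξ E * T ↑(a :: (t ++ E.map Prod.fst)) * U k (δ - s) u (E.map Prod.snd)
  | _ + 1, 0, [], [] => 1
  | _ + 1, _ + 1, [], [] => 0

/-- Rearrangement of double binomial sums. -/
theorem binom_re (d : ℕ) (f : ℕ → ℕ → ℝ) (z : ℕ → ℝ) :
    ∑ s ∈ range (d + 1), (d.choose s : ℝ) *
        ∑ e ∈ range (d - s + 1), ((d - s).choose e : ℝ) * f s e * z (d - s - e) =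
      ∑ e ∈ range (d + 1), (d.choose e : ℝ) *
        (∑ s ∈ range (e + 1), (e.choose s : ℝ) * f s (e - s)) * z (d - e) := by
  have h1 : ∀ s ∈ range (d + 1), (d.choose s : ℝ) *
      ∑ e ∈ range (d - s + 1), ((d - s).choose e : ℝ) * f s e * z (d - s - e) =
      ∑ e ∈ Ico s (d + 1), (d.choose e : ℝ) * (e.choose s : ℝ) * f s (e - s) * z (d - e) := by
    intro s hs
    have hs' : s ≤ d := by simpa [Nat.lt_succ_iff] using hs
    rw [Finset.sum_Ico_eq_sum_range, Finset.mul_sum, show d + 1 - s = d - s + 1 by omega]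
    refine Finset.sum_congr rfl fun e he => ?_
    have he' : e ≤ d - s := by simpa [Nat.lt_succ_iff] using he
    have h2 := Nat.choose_mul (n := d) (k := s + e) (s := s) (by omega)
    rw [show s + e - s = e by omega] at h2 ⊢
    have h3 : ((d.choose (s + e) : ℝ)) * ((s + e).choose s : ℝ) =
        (d.choose s : ℝ) * ((d - s).choose e : ℝ) := by exact_mod_cast h2
    rw [h3, show d - (s + e) = d - s - e by omega]
    ring
  rw [Finset.sum_congr rfl h1]
  rw [Finset.sum_comm' (s' := fun e => range (e + 1)) (t' := range (d + 1)) (by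
    intro s e
    simp only [Finset.mem_range, Finset.mem_Ico]
    omega)]
  refine Finset.sum_congr rfl fun e _ => ?_
  rw [Finset.mul_sum, Finset.sum_mul]
  exact Finset.sum_congr rfl fun s _ => by ring

theorem S_length {α : Type*} {l t u : List α} (h : (t ++ u).Perm l) : u.length ≤ l.length := by
  have := h.length_eq
  rw [List.length_append] at this
  omega

/-- The exploration identity. -/
theorem R_eq (hM : MC M T) (hM' : MC M' T') (k : ℕ) : ∀ (d : ℕ) (q q' : List Ω),
    2 * d + q.length + q'.length < k →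
    R ξ M M' d q q' = ∑ e ∈ range (d + 1), (d.choose e : ℝ) * U ξ T T' k e q q' *
      R ξ M M' (d - e) [] [] := by
  induction k with
  | zero => intro d q q' h; omega
  | succ k ih =>
    intro d q q' hk
    rcases q' with _ | ⟨a, q'⟩
    · rcases q with _ | ⟨a, q⟩
      · rw [Finset.sum_range_succ']
        simp [U]
      · rw [R_left ξ hM]
        have h1 : ∀ s ∈ range (d + 1), (d.choose s : ℝ) * ∑ E ∈ Ls (Ω × Ω) s,
            S q (fun t u => xi ξ E * T ↑(a :: (t ++ E.map Prod.fst)) *
              R ξ M M' (d - s) u ([] ++ E.map Prod.snd)) = (d.choose s : ℝ) *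
            ∑ e ∈ range (d - s + 1), ((d - s).choose e : ℝ) * (∑ E ∈ Ls (Ω × Ω) s,
              S q fun t u => xi ξ E * T ↑(a :: (t ++ E.map Prod.fst)) *
                U ξ T T' k e u (E.map Prod.snd)) * R ξ M M' (d - s - e) [] [] := by
          intro s hs
          have hs' : s ≤ d := by simpa [Nat.lt_succ_iff] using hs
          congr 1
          simp only [Finset.mul_sum, Finset.sum_mul]
          rw [Finset.sum_comm]
          refine Finset.sum_congr rfl fun E hE => ?_
          have hl : (E.map Prod.snd).length = s := by rw [List.length_map, mem_Ls.1 hE]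
          have h2 : ∀ t u, (t ++ u).Perm q → xi ξ E * T ↑(a :: (t ++ E.map Prod.fst)) *
              R ξ M M' (d - s) u ([] ++ E.map Prod.snd) = ∑ e ∈ range (d - s + 1),
              (((d - s).choose e : ℝ) * R ξ M M' (d - s - e) [] []) *
                (xi ξ E * T ↑(a :: (t ++ E.map Prod.fst)) *
                U ξ T T' k e u (E.map Prod.snd)) := by
            intro t u htu
            have := S_length htu
            simp only [List.length_cons, List.length_nil] at hk
            rw [List.nil_append, ih (d - s) u (E.map Prod.snd) (by omega), Finset.mul_sum]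
            exact Finset.sum_congr rfl fun e _ => by ring
          rw [S_congr h2, S_sum]
          refine Finset.sum_congr rfl fun e _ => ?_
          rw [S_mul]
          ring
        rw [Finset.sum_congr rfl h1, binom_re d (fun s e => ∑ E ∈ Ls (Ω × Ω) s,
              S q fun t u => xi ξ E * T ↑(a :: (t ++ E.map Prod.fst)) *
                U ξ T T' k e u (E.map Prod.snd)) (fun n => R ξ M M' n [] [])]
        rfl
    · rw [R_right ξ hM']
      have h1 : ∀ s ∈ range (d + 1), (d.choose s : ℝ) * ∑ E ∈ Ls (Ω × Ω) s,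
          S q' (fun t u => xi ξ E * T' ↑(a :: (t ++ E.map Prod.snd)) *
            R ξ M M' (d - s) (q ++ E.map Prod.fst) u) = (d.choose s : ℝ) *
          ∑ e ∈ range (d - s + 1), ((d - s).choose e : ℝ) * (∑ E ∈ Ls (Ω × Ω) s,
            S q' fun t u => xi ξ E * T' ↑(a :: (t ++ E.map Prod.snd)) *
              U ξ T T' k e (q ++ E.map Prod.fst) u) * R ξ M M' (d - s - e) [] [] := by
        intro s hs
        have hs' : s ≤ d := by simpa [Nat.lt_succ_iff] using hs
        congr 1
        simp only [Finset.mul_sum, Finset.sum_mul]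
        rw [Finset.sum_comm]
        refine Finset.sum_congr rfl fun E hE => ?_
        have hl : (q ++ E.map Prod.fst).length = q.length + s := by
          rw [List.length_append, List.length_map, mem_Ls.1 hE]
        have h2 : ∀ t u, (t ++ u).Perm q' → xi ξ E * T' ↑(a :: (t ++ E.map Prod.snd)) *
            R ξ M M' (d - s) (q ++ E.map Prod.fst) u = ∑ e ∈ range (d - s + 1),
            (((d - s).choose e : ℝ) * R ξ M M' (d - s - e) [] []) *
              (xi ξ E * T' ↑(a :: (t ++ E.map Prod.snd)) *
              U ξ T T' k e (q ++ E.map Prod.fst) u) := by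
          intro t u htu
          have := S_length htu
          simp only [List.length_cons] at hk
          rw [ih (d - s) (q ++ E.map Prod.fst) u (by omega), Finset.mul_sum]
          exact Finset.sum_congr rfl fun e _ => by ring
        rw [S_congr h2, S_sum]
        refine Finset.sum_congr rfl fun e _ => ?_
        rw [S_mul]
        ring
      rw [Finset.sum_congr rfl h1, binom_re d (fun s e => ∑ E ∈ Ls (Ω × Ω) s,
            S q' fun t u => xi ξ E * T' ↑(a :: (t ++ E.map Prod.snd)) *
              U ξ T T' k e (q ++ E.map Prod.fst) u) (fun n => R ξ M M' n [] [])]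
      rfl

end Vale.Agent.P042.H159
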